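import Vale.Agent.P235.H830.QDefs
import Vale.Agent.P235.H786.CG

/-! (BLK) the geometry inside one block of the grid (helper455). -/

namespace Vale.Agent.P235.H455

open SimpleGraph Vale.Agent.P235.H134 Vale.Agent.P235.H56 Vale.Agent.P235.H141
open Vale.Agent.P235.H830
open Vale.Agent.P235.H786 (rect rect_connected)

theorem st_succ (r k : ℕ) : st r (k + 1) = st r k + (r + 2) := by
  unfold st
  ring

theorem st_le (r : ℕ) (k : Fin 16) : st r (k.val + 1) + 3 ≤ RR r := by
  unfold st RR
  have := Nat.mul_le_mul_right (r + 2) (show k.val + 1 ≤ 16 from k.isLt)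
  omega

theorem st_mono (r : ℕ) {k l : ℕ} (h : k ≤ l) : st r k ≤ st r l := by
  unfold st
  have := Nat.mul_le_mul_right (r + 2) h
  omega

theorem mem_ring {r : ℕ} {k : Fin 16} {i : Fin 3} {x : Fin (RR r) × Fin (RR r)} :
    x ∈ ring r k i ↔ (st r k.val ≤ x.1.val ∧ x.1.val < st r (k.val + 1) ∧ st r k.val ≤ x.2.val ∧
      x.2.val < st r (k.val + 1)) ∧ ((i = 0 ∧ x.1.val = st r k.val) ∨
    (i = 1 ∧ x.1.val ≠ st r k.val ∧ x.2.val = st r k.val) ∨
    (i = 2 ∧ x.1.val ≠ st r k.val ∧ x.2.val ≠ st r k.val ∧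
      (x.1.val + 1 = st r (k.val + 1) ∨ x.2.val + 1 = st r (k.val + 1)))) := Iff.rfl

theorem mem_side {r : ℕ} {i : Fin 3} {x : Fin r × Fin r} : x ∈ side r i ↔
    (i = 0 ∧ x.1.val = 0) ∨ (i = 1 ∧ x.2.val = 0) ∨
      (i = 2 ∧ (x.1.val + 1 = r ∨ x.2.val + 1 = r)) := Iff.rfl

theorem touch_symm {V : Type} {G : SimpleGraph V} {S T : Set V} (h : Touch G S T) :
    Touch G T S := by
  obtain ⟨x, hx, y, hy, h⟩ := h
  exact ⟨y, hy, x, hx, h.symm⟩

theorem fin3 (P : Fin 3 → Prop) (h0 : P 0) (h1 : P 1) (h2 : P 2) : ∀ i, P i := by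
  intro i
  fin_cases i
  · exact h0
  · exact h1
  · exact h2

theorem ring_connected (r : ℕ) (k : Fin 16) :
    ∀ i, ((grid (RR r)).induce (ring r k i)).Connected := by
  have ht := st_succ r k.val
  have hn := st_le r k
  refine fin3 _ ?_ ?_ ?_
  · have h : ring r k 0 = rect (RR r) (st r k.val) (st r k.val + 1) (st r k.val)
        (st r (k.val + 1)) := by
      ext x
      rw [mem_ring]
      simp only [rect, Set.mem_ofPred_eq, true_and, Fin.isValue, zero_ne_one, false_and, or_false,
        show ((0 : Fin 3) = 2) = False from by simp]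
      omega
    rw [h]
    exact rect_connected (by omega) (by omega) (by omega) (by omega)
  · have h : ring r k 1 = rect (RR r) (st r k.val + 1) (st r (k.val + 1)) (st r k.val)
        (st r k.val + 1) := by
      ext x
      rw [mem_ring]
      simp only [rect, Set.mem_ofPred_eq, true_and, Fin.isValue, false_and, or_false, false_or,
        show ((1 : Fin 3) = 0) = False from by simp, show ((1 : Fin 3) = 2) = False from by simp]
      omega
    rw [h]
    exact rect_connected (by omega) (by omega) (by omega) (by omega)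
  · have h : ring r k 2 = rect (RR r) (st r (k.val + 1) - 1) (st r (k.val + 1))
        (st r k.val + 1) (st r (k.val + 1)) ∪ rect (RR r) (st r k.val + 1) (st r (k.val + 1))
        (st r (k.val + 1) - 1) (st r (k.val + 1)) := by
      ext x
      rw [mem_ring]
      simp only [rect, Set.mem_ofPred_eq, Set.mem_union, true_and, Fin.isValue, false_and, false_or,
        show ((2 : Fin 3) = 0) = False from by simp, show ((2 : Fin 3) = 1) = False from by simp]
      omega
    rw [h]
    have c1 : ((grid (RR r)).induce (rect (RR r) (st r (k.val + 1) - 1) (st r (k.val + 1))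
        (st r k.val + 1) (st r (k.val + 1)))).Connected :=
      rect_connected (by omega) (by omega) (by omega) (by omega)
    have c2 : ((grid (RR r)).induce (rect (RR r) (st r k.val + 1) (st r (k.val + 1))
        (st r (k.val + 1) - 1) (st r (k.val + 1)))).Connected :=
      rect_connected (by omega) (by omega) (by omega) (by omega)
    refine induce_union_connected c1.preconnected c2.preconnected
      ⟨(⟨st r (k.val + 1) - 1, by omega⟩, ⟨st r (k.val + 1) - 1, by omega⟩), ?_, ?_⟩
    · refine ⟨?_, ?_, ?_, ?_⟩ <;> simp only <;> omega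
    · refine ⟨?_, ?_, ?_, ?_⟩ <;> simp only <;> omega

theorem blk_stmt : BlkStmt := by
  intro r k hr
  have ht := st_succ r k.val
  have hn := st_le r k
  have hr1 : ∀ p : Fin r × Fin r, (inn r k p).1.val = st r k.val + 1 + p.1.val := fun p => rfl
  have hr2 : ∀ p : Fin r × Fin r, (inn r k p).2.val = st r k.val + 1 + p.2.val := fun p => rfl
  refine ⟨ring_connected r k, ?_, ?_, ?_, ?_, ?_, ?_, ?_, ?_, ?_⟩
  · intro i j hij
    rw [Set.disjoint_left]
    intro x hi hj
    rw [mem_ring] at hi hj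
    rcases hi.2 with ⟨h1, h2⟩ | ⟨h1, h2, h3⟩ | ⟨h1, h2, h3, h4⟩ <;>
      rcases hj.2 with ⟨g1, g2⟩ | ⟨g1, g2, g3⟩ | ⟨g1, g2, g3, g4⟩ <;>
      first
        | exact hij (h1.trans g1.symm)
        | omega
  · have h01 : Touch (grid (RR r)) (ring r k 0) (ring r k 1) := by
      refine ⟨(⟨st r k.val, by omega⟩, ⟨st r k.val, by omega⟩), ?_,
        (⟨st r k.val + 1, by omega⟩, ⟨st r k.val, by omega⟩), ?_, ?_⟩
      · rw [mem_ring]; exact ⟨by simp only; omega, Or.inl ⟨rfl, rfl⟩⟩
      · rw [mem_ring]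
        exact ⟨by simp only; omega, Or.inr (Or.inl ⟨rfl, by simp only; omega, rfl⟩)⟩
      · exact (H786.grid_adj _ _).2 (Or.inl ⟨Or.inl rfl, rfl⟩)
    have h12 : Touch (grid (RR r)) (ring r k 1) (ring r k 2) := by
      refine ⟨(⟨st r (k.val + 1) - 1, by omega⟩, ⟨st r k.val, by omega⟩), ?_,
        (⟨st r (k.val + 1) - 1, by omega⟩, ⟨st r k.val + 1, by omega⟩), ?_, ?_⟩
      · rw [mem_ring]
        exact ⟨by simp only; omega, Or.inr (Or.inl ⟨rfl, by simp only; omega, rfl⟩)⟩
      · rw [mem_ring]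
        exact ⟨by simp only; omega, Or.inr (Or.inr ⟨rfl, by simp only; omega, by simp only; omega,
          by simp only; omega⟩)⟩
      · exact (H786.grid_adj _ _).2 (Or.inr ⟨Or.inl rfl, rfl⟩)
    have h02 : Touch (grid (RR r)) (ring r k 0) (ring r k 2) := by
      refine ⟨(⟨st r k.val, by omega⟩, ⟨st r (k.val + 1) - 1, by omega⟩), ?_,
        (⟨st r k.val + 1, by omega⟩, ⟨st r (k.val + 1) - 1, by omega⟩), ?_, ?_⟩
      · rw [mem_ring]; exact ⟨by simp only; omega, Or.inl ⟨rfl, rfl⟩⟩
      · rw [mem_ring]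
        exact ⟨by simp only; omega, Or.inr (Or.inr ⟨rfl, by simp only; omega, by simp only; omega,
          by simp only; omega⟩)⟩
      · exact (H786.grid_adj _ _).2 (Or.inl ⟨Or.inl rfl, rfl⟩)
    refine fin3 _ (fin3 _ ?_ ?_ ?_) (fin3 _ ?_ ?_ ?_) (fin3 _ ?_ ?_ ?_)
    · exact fun h => absurd rfl h
    · exact fun _ => h01
    · exact fun _ => h02
    · exact fun _ => touch_symm h01
    · exact fun h => absurd rfl h
    · exact fun _ => h12
    · exact fun _ => touch_symm h02
    · exact fun _ => touch_symm h12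
    · exact fun h => absurd rfl h
  · intro p q h
    have h1 := congrArg (fun x => x.1.val) h
    have h2 := congrArg (fun x => x.2.val) h
    simp only [hr1, hr2] at h1 h2
    exact Prod.ext (Fin.ext (by omega)) (Fin.ext (by omega))
  · intro p q h
    rw [H786.grid_adj] at h ⊢
    rw [Fin.ext_iff, Fin.ext_iff, hr1, hr1, hr2, hr2]
    rw [Fin.ext_iff, Fin.ext_iff] at h
    omega
  · intro p
    have h1 := p.1.isLt
    have h2 := p.2.isLt
    have e1 := hr1 p
    have e2 := hr2 p
    refine ⟨?_, ?_, ?_, ?_⟩ <;> omega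
  · intro p i h
    rw [mem_ring] at h
    have h1 := p.1.isLt
    have h2 := p.2.isLt
    have e1 := hr1 p
    have e2 := hr2 p
    rcases h.2 with ⟨_, h3⟩ | ⟨_, h3, h4⟩ | ⟨_, h3, h4, h5⟩ <;> omega
  · intro i p h
    have h1 := p.1.isLt
    have h2 := p.2.isLt
    have e1 := hr1 p
    have e2 := hr2 p
    rcases mem_side.1 h with ⟨rfl, h⟩ | ⟨rfl, h⟩ | ⟨rfl, h | h⟩
    · refine ⟨(⟨st r k.val, by omega⟩, (inn r k p).2), ?_, _, rfl, ?_⟩
      · rw [mem_ring]; exact ⟨by simp only; omega, Or.inl ⟨rfl, rfl⟩⟩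
      · exact (H786.grid_adj _ _).2 (Or.inl ⟨Or.inl (by simp only; omega), rfl⟩)
    · refine ⟨((inn r k p).1, ⟨st r k.val, by omega⟩), ?_, _, rfl, ?_⟩
      · rw [mem_ring]
        exact ⟨by simp only; omega, Or.inr (Or.inl ⟨rfl, by simp only; omega, rfl⟩)⟩
      · exact (H786.grid_adj _ _).2 (Or.inr ⟨Or.inl (by simp only; omega), rfl⟩)
    · refine ⟨(⟨st r (k.val + 1) - 1, by omega⟩, (inn r k p).2), ?_, _, rfl, ?_⟩
      · rw [mem_ring]
        exact ⟨by simp only; omega, Or.inr (Or.inr ⟨rfl, by simp only; omega, by simp only; omega,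
          by simp only; omega⟩)⟩
      · exact (H786.grid_adj _ _).2 (Or.inl ⟨Or.inr (by simp only; omega), rfl⟩)
    · refine ⟨((inn r k p).1, ⟨st r (k.val + 1) - 1, by omega⟩), ?_, _, rfl, ?_⟩
      · rw [mem_ring]
        exact ⟨by simp only; omega, Or.inr (Or.inr ⟨rfl, by simp only; omega, by simp only; omega,
          by simp only; omega⟩)⟩
      · exact (H786.grid_adj _ _).2 (Or.inr ⟨Or.inr (by simp only; omega), rfl⟩)
  · have hsub : ({(⟨st r k.val, by omega⟩, ⟨st r k.val, by omega⟩),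
        (⟨st r k.val, by omega⟩, ⟨st r k.val + 1, by omega⟩),
        (⟨st r k.val + 1, by omega⟩, ⟨st r k.val, by omega⟩)} :
        Set (Fin (RR r) × Fin (RR r))) ⊆ blk r k := by
      rintro x (rfl | rfl | rfl)
      · refine ⟨?_, ?_, ?_, ?_⟩ <;> simp only <;> omega
      · refine ⟨?_, ?_, ?_, ?_⟩ <;> simp only <;> omega
      · refine ⟨?_, ?_, ?_, ?_⟩ <;> simp only <;> omega
    refine le_trans (le_of_eq ?_) (Set.ncard_le_ncard hsub (Set.toFinite _))
    symm
    refine Set.ncard_eq_three.2 ⟨_, _, _, ?_, ?_, ?_, rfl⟩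
    · intro h; have := congrArg (fun x => x.2.val) h; simp only at this; omega
    · intro h; have := congrArg (fun x => x.1.val) h; simp only at this; omega
    · intro h; have := congrArg (fun x => x.1.val) h; simp only at this; omega
  · intro l hkl
    rw [Set.disjoint_left]
    rintro x ⟨h1, h2, -, -⟩ ⟨h3, h4, -, -⟩
    rcases lt_trichotomy k l with h | h | h
    · have := st_mono r (show k.val + 1 ≤ l.val from h)
      omega
    · exact hkl h
    · have := st_mono r (show l.val + 1 ≤ k.val from h)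
      omega

end Vale.Agent.P235.H455
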