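import Vale.Agent.P235.H141.JDefs

/-!
# (ISO): a graph with a marked edge as a double cap (helper455)

`K` has the edge `none - some w`; `G0` is `K` without these two vertices, `A`, `B` are the sets of
their neighbours. `K` is `capG (capG G0 A) (insert none (some '' B))`, and the contraction of the edge
is `capG G0 (A ∪ B)`.
-/

namespace Vale.Agent.P235.H455

open SimpleGraph Vale.Agent.P235 Vale.Agent.P235.H134 Vale.Agent.P235.H56 Vale.Agent.P235.H141
open Vale.Agent.P235.H341W (capG)

variable {W : Type}

/-- the vertices different from `none` and `some w` -/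
abbrev VS (w : W) : Set (Option W) := {x | x ≠ none ∧ x ≠ some w}

/-- `K` without the two vertices -/
abbrev G0 (K : SimpleGraph (Option W)) (w : W) : SimpleGraph (VS w) := K.induce (VS w)

/-- the neighbours of `none` -/
def nA (K : SimpleGraph (Option W)) (w : W) : Set (VS w) := {x | K.Adj none x}

/-- the neighbours of `some w` -/
def nB (K : SimpleGraph (Option W)) (w : W) : Set (VS w) := {x | K.Adj (some w) x}

open Classical in
/-- `none ↦ some none`, `some w ↦ none` -/
noncomputable def e1 (w : W) : Option W ≃ Option (Option (VS w)) where
  toFun x := if h1 : x = none then some none else if h2 : x = some w then none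
    else some (some ⟨x, h1, h2⟩)
  invFun y := match y with
    | none => some w
    | some none => none
    | some (some z) => z.1
  left_inv x := by
    by_cases h1 : x = none
    · simp [h1]
    · by_cases h2 : x = some w
      · simp [h2]
      · simp [h1, h2]
  right_inv y := by
    rcases y with _ | _ | ⟨z, hz⟩
    · simp
    · simp
    · simp [hz.1, hz.2]

@[simp] theorem e1_none (w : W) : e1 w none = some none := by simp [e1]

@[simp] theorem e1_w (w : W) : e1 w (some w) = none := by simp [e1]

theorem e1_of {w : W} {x : Option W} (h : x ∈ VS w) : e1 w x = some (some ⟨x, h⟩) := by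
  simp [e1, h.1, h.2]

/-- **The graph as a double cap.** -/
noncomputable def iso1 (K : SimpleGraph (Option W)) (w : W) (hw : K.Adj none (some w)) :
    K ≃g capG (capG (G0 K w) (nA K w)) (insert none (some '' nB K w)) where
  toEquiv := e1 w
  map_rel_iff' {x y} := by
    have hcase : ∀ x : Option W, x = none ∨ x = some w ∨ x ∈ VS w := by
      intro x
      by_cases h1 : x = none
      · exact Or.inl h1
      · by_cases h2 : x = some w
        · exact Or.inr (Or.inl h2)
        · exact Or.inr (Or.inr ⟨h1, h2⟩)
    rcases hcase x with rfl | rfl | hx <;> rcases hcase y with rfl | rfl | hy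
    · simp [capG]
    · simp [capG, hw]
    · rw [e1_none, e1_of hy]
      simp [capG, nA]
    · simp [capG, hw.symm]
    · simp [capG]
    · rw [e1_w, e1_of hy]
      simp [capG, nB, hy.1, hy.2]
    · rw [e1_none, e1_of hx]
      simp [capG, nA, K.adj_comm]
    · rw [e1_w, e1_of hx]
      simp [capG, nB, K.adj_comm, hx.1, hx.2]
    · rw [e1_of hx, e1_of hy]
      simp [capG]

open Classical in
/-- the other way round: `none ↦ none`, `some w ↦ some none` -/
noncomputable def e3 (w : W) : Option W ≃ Option (Option (VS w)) where
  toFun x := if h1 : x = none then none else if h2 : x = some w then some none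
    else some (some ⟨x, h1, h2⟩)
  invFun y := match y with
    | none => none
    | some none => some w
    | some (some z) => z.1
  left_inv x := by
    by_cases h1 : x = none
    · simp [h1]
    · by_cases h2 : x = some w
      · simp [h2]
      · simp [h1, h2]
  right_inv y := by
    rcases y with _ | _ | ⟨z, hz⟩
    · simp
    · simp
    · simp [hz.1, hz.2]

@[simp] theorem e3_none (w : W) : e3 w none = none := by simp [e3]

@[simp] theorem e3_w (w : W) : e3 w (some w) = some none := by simp [e3]

theorem e3_of {w : W} {x : Option W} (h : x ∈ VS w) : e3 w x = some (some ⟨x, h⟩) := by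
  simp [e3, h.1, h.2]

/-- **The graph as a double cap, the other way round.** -/
noncomputable def iso3 (K : SimpleGraph (Option W)) (w : W) (hw : K.Adj none (some w)) :
    K ≃g capG (capG (G0 K w) (nB K w)) (insert none (some '' nA K w)) where
  toEquiv := e3 w
  map_rel_iff' {x y} := by
    have hcase : ∀ x : Option W, x = none ∨ x = some w ∨ x ∈ VS w := by
      intro x
      by_cases h1 : x = none
      · exact Or.inl h1
      · by_cases h2 : x = some w
        · exact Or.inr (Or.inl h2)
        · exact Or.inr (Or.inr ⟨h1, h2⟩)
    rcases hcase x with rfl | rfl | hx <;> rcases hcase y with rfl | rfl | hy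
    · simp [capG]
    · simp [capG, hw]
    · rw [e3_none, e3_of hy]
      simp [capG, nA, hy.1, hy.2]
    · simp [capG, hw.symm]
    · simp [capG]
    · rw [e3_w, e3_of hy]
      simp [capG, nB]
    · rw [e3_none, e3_of hx]
      simp [capG, nA, K.adj_comm, hx.1, hx.2]
    · rw [e3_w, e3_of hx]
      simp [capG, nB, K.adj_comm]
    · rw [e3_of hx, e3_of hy]
      simp [capG]

open Classical in
/-- `w ↦ none` -/
noncomputable def e2 (w : W) : W ≃ Option (VS w) where
  toFun a := if h : a = w then none else some ⟨some a, by simp, by simpa using h⟩
  invFun y := match y with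
    | none => w
    | some z => z.1.getD w
  left_inv a := by
    by_cases h : a = w
    · simp [h]
    · simp [h]
  right_inv y := by
    rcases y with _ | ⟨_ | z, hz⟩
    · simp
    · exact absurd rfl hz.1
    · have h : z ≠ w := fun h => hz.2 (by rw [h])
      simp [h]

@[simp] theorem e2_w (w : W) : e2 w w = none := by simp [e2]

theorem e2_of {w a : W} (h : a ≠ w) : e2 w a = some ⟨some a, by simp, by simpa using h⟩ := by
  simp [e2, h]

theorem getD_eq {w a : W} (h : a ≠ w) {x : Option W} : x.getD w = a ↔ x = some a := by
  rcases x with _ | b
  · simp [Ne.symm h]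
  · simp

theorem getD_eq_self {w : W} {x : Option W} : x.getD w = w ↔ x = none ∨ x = some w := by
  rcases x with _ | b <;> simp

/-- **The contraction of the edge as a cap.** -/
noncomputable def iso2 (K : SimpleGraph (Option W)) (w : W) :
    quot K (fun x => x.getD w) ≃g capG (G0 K w) (nA K w ∪ nB K w) where
  toEquiv := e2 w
  map_rel_iff' {a b} := by
    by_cases ha : a = w
    · by_cases hb : b = w
      · subst ha
        subst hb
        simp [capG, quot]
      · subst ha
        rw [e2_w, e2_of hb]
        simp only [capG, quot, getD_eq_self, getD_eq hb, nA, nB, Set.mem_union, Set.mem_ofPred_eq]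
        constructor
        · rintro (h | h)
          · exact ⟨Ne.symm hb, none, some b, Or.inl rfl, rfl, h⟩
          · exact ⟨Ne.symm hb, some a, some b, Or.inr rfl, rfl, h⟩
        · rintro ⟨-, x, y, rfl | rfl, rfl, h⟩
          · exact Or.inl h
          · exact Or.inr h
    · by_cases hb : b = w
      · subst hb
        rw [e2_w, e2_of ha]
        simp only [capG, quot, getD_eq_self, getD_eq ha, nA, nB, Set.mem_union, Set.mem_ofPred_eq]
        constructor
        · rintro (h | h)
          · exact ⟨ha, some a, none, rfl, Or.inl rfl, h.symm⟩
          · exact ⟨ha, some a, some b, rfl, Or.inr rfl, h.symm⟩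
        · rintro ⟨-, x, y, rfl, rfl | rfl, h⟩
          · exact Or.inl h.symm
          · exact Or.inr h.symm
      · rw [e2_of ha, e2_of hb]
        simp only [capG, quot, getD_eq ha, getD_eq hb, comap_adj, Function.Embedding.subtype_apply]
        constructor
        · intro h
          exact ⟨fun hab => h.ne (by rw [hab]), some a, some b, rfl, rfl, h⟩
        · rintro ⟨-, x, y, rfl, rfl, h⟩
          exact h

/-- **(ISO).** -/
theorem iso (K : SimpleGraph (Option W)) (w : W) (hw : K.Adj none (some w)) :
    Nonempty (K ≃g capG (capG (K.induce {x | x ≠ none ∧ x ≠ some w}) {x | K.Adj none x})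
      (insert none (some '' {x | K.Adj (some w) x}))) ∧
    Nonempty (quot K (fun x => x.getD w) ≃g
      capG (K.induce {x | x ≠ none ∧ x ≠ some w}) ({x | K.Adj none x} ∪ {x | K.Adj (some w) x})) :=
  ⟨⟨iso1 K w hw⟩, ⟨iso2 K w⟩⟩

end Vale.Agent.P235.H455
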